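import Vale.Agent.P032.Net.H672.NoD

/-!
# P032: the network of two-pair centres with effective types, abstract form

`E X z v`: `v` is an (effective) end of type `X` (a set of three colours) of an exact arc of the
circle about `z`; the palette `T v` may be larger than `X`.
`A z X v X' v'`: the end `v` of type `X` and the end `v'` of type `X'` are the two ends of one exact
arc of the circle about `z` (of length in `[0, π / 3]`).
`Fa X m`: `X` is a face at `m`.
-/

open Complex Set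

set_option linter.dupNamespace false

namespace Vale.Agent.P032.H949

open Vale.Agent.P032.Net.H672

/-- an end whose complementary type occurs on the same circle -/
def FFull (E : Set (Fin 6) → ℂ → ℂ → Prop) (X : Set (Fin 6)) (z v : ℂ) : Prop :=
  E X z v ∧ ∃ q, E Xᶜ z q

/-- the facts on types and arcs at the two-pair centres -/
structure FNet (T : ℂ → Set (Fin 6)) (Fa : Set (Fin 6) → ℂ → Prop)
    (E : Set (Fin 6) → ℂ → ℂ → Prop) (A : ℂ → Set (Fin 6) → ℂ → Set (Fin 6) → ℂ → Prop)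
    (o : Set (Fin 6) → ℂ → ℂ → ℝ) (inn : Set (Fin 6) → ℂ → ℂ → Fin 6) : Prop where
  net : ∀ X : Set (Fin 6), Net (E X) (E Xᶜ)
  card_z : ∀ {X z v}, E X z v → (T z).ncard = 4
  card_v : ∀ {X z v}, E X z v → X.ncard = 3
  card_i : ∀ {X z v}, E X z v → (X ∩ T z).ncard = 2
  cov : ∀ {X z v q}, E X z v → E Xᶜ z q → ∀ i, i ∈ T z ∨ i ∈ T (v + q - z)
  ori : ∀ {X z v}, E X z v → o X z v = 1 ∨ o X z v = -1
  inn_mem : ∀ {X z v}, E X z v → inn X z v ∈ X ∩ T z
  /-- the arc of `z` at `v` is inside the disc about `w = v + q - z` iff the inner colour of the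
  arc of `w` at `v` is the colour common to `z` and `w` -/
  LP1 : ∀ {X z v q}, E X z v → E Xᶜ z q →
    (0 < o X z v * dt (z - v) (q - z) ↔ inn X (v + q - z) v ∈ T z)
  /-- ends of one pair on both sides of a line through an end of the other pair -/
  LP2 : ∀ {Y X X' z q v v'}, FFull E Y z q → FFull E X z v → FFull E X' z v' →
    X ∩ T z = T z \ Y → X' ∩ T z = T z \ Y →
    (inn X z v = inn X' z v' ↔ 0 < dt (q - z) (v - z) * dt (q - z) (v' - z))
  /-- the third edge at a vertex -/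
  LP3 : ∀ {X z v q c p}, E X z v → E Xᶜ z q → E X c v → E Xᶜ c p →
    c ≠ z → c ≠ v + q - z → ∃ a b : ℝ, 0 ≤ a ∧ 0 ≤ b ∧
      ((o X c v : ℝ) : ℂ) * (c - v) + (a : ℂ) * (((o X z v : ℝ) : ℂ) * (z - v))
        + (b : ℂ) * (((o X (v + q - z) v : ℝ) : ℂ) * (q - z)) = 0
  arc_ex : ∀ {X z v}, FFull E X z v → ∃ X' v', A z X v X' v'
  arc_end : ∀ {X X' z v v'}, FFull E X z v → A z X v X' v' → E X' z v'
  arc_pair : ∀ {X X' z v v'}, FFull E X z v → A z X v X' v' → X' ∩ T z = X ∩ T z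
  arc_len : ∀ {X X' z v v'}, FFull E X z v → A z X v X' v' → ∃ l : ℝ, 0 ≤ l ∧ l ≤ Real.pi / 3 ∧
    v' - z = (v - z) * Complex.exp (-((o X z v * l : ℝ) : ℂ) * I)
  arc_uniq : ∀ {X X' X'' z v v' v''}, FFull E X z v → A z X v X' v' → A z X v X'' v'' →
    X' = X'' ∧ v' = v''
  arc_symm : ∀ {X X' z v v'}, FFull E X z v → FFull E X' z v' → A z X v X' v' → A z X' v' X v
  arc_ori : ∀ {X X' z v v'}, FFull E X z v → FFull E X' z v' → A z X v X' v' →
    o X' z v' = - o X z v
  arc_inn : ∀ {X X' z v v'}, FFull E X z v → FFull E X' z v' → A z X v X' v' →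
    inn X' z v' = inn X z v
  /-- points with the type of an end as a face are ends -/
  auto : ∀ {X z v q m}, E X z v → E Xᶜ z q → dist m z = 1 → Fa X m → E X z m
  /-- the common points of two circles whose centres have all six colours -/
  common : ∀ {X X' w v q w' v' q' m}, E X w v → E Xᶜ w q → E X' w' v' → E X'ᶜ w' q' → w ≠ w' →
    (∀ i, i ∈ T w ∨ i ∈ T w') → dist m w = 1 → dist m w' = 1 → w + w' ≠ 2 * m →
    (X ∩ T w ∩ T w').ncard = 1 → (X' ∩ T w' ∩ T w).ncard = 1 →
    ∃ Y : Set (Fin 6), Y.ncard = 3 ∧ Fa Y m ∧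
      (Y ∩ T w = X ∩ T w ∨ Y ∩ T w = Xᶜ ∩ T w) ∧
      (Y ∩ T w' = X' ∩ T w' ∨ Y ∩ T w' = X'ᶜ ∩ T w')
  /-- at a centre with two ends of the complementary type no arc has length `π / 3` -/
  no60 : ∀ {X X' z v v' q q'}, E X z v → E Xᶜ z q → E Xᶜ z q' → q ≠ q' → A z X v X' v' →
    dist v v' ≠ 1

variable {T : ℂ → Set (Fin 6)} {Fa : Set (Fin 6) → ℂ → Prop}
    {E : Set (Fin 6) → ℂ → ℂ → Prop} {A : ℂ → Set (Fin 6) → ℂ → Set (Fin 6) → ℂ → Prop}
    {o : Set (Fin 6) → ℂ → ℂ → ℝ} {inn : Set (Fin 6) → ℂ → ℂ → Fin 6}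

/-- a middle centre -/
structure FMid (E : Set (Fin 6) → ℂ → ℂ → Prop) (X : Set (Fin 6)) (M v q q' : ℂ) : Prop where
  hv : E X M v
  hq : E Xᶜ M q
  hq' : E Xᶜ M q'
  ne : q ≠ q'

theorem FMid.fv {X : Set (Fin 6)} {M v q q' : ℂ} (m : FMid E X M v q q') : FFull E X M v :=
  ⟨m.hv, q, m.hq⟩

theorem FMid.fq {X : Set (Fin 6)} {M v q q' : ℂ} (m : FMid E X M v q q') : FFull E Xᶜ M q :=
  ⟨m.hq, v, by rw [compl_compl]; exact m.hv⟩

theorem FMid.fq' {X : Set (Fin 6)} {M v q q' : ℂ} (m : FMid E X M v q q') : FFull E Xᶜ M q' :=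
  ⟨m.hq', v, by rw [compl_compl]; exact m.hv⟩

theorem FMid.swap {X : Set (Fin 6)} {M v q q' : ℂ} (m : FMid E X M v q q') :
    FMid E X M v q' q := ⟨m.hv, m.hq', m.hq, m.ne.symm⟩

namespace FNet

variable {X : Set (Fin 6)} {M v q q' : ℂ}

theorem exists_mid (D : FNet T Fa E A o inn) {z : ℂ} (hv : E X z v) (hq : E Xᶜ z q) :
    ∃ M q', FMid E X M v q q' := by
  obtain ⟨M, q', hne, h1, h2, h3⟩ := (D.net X).exists_middle (z := z) hv hq
  exact ⟨M, q', h1, h2, h3, hne⟩

theorem uniq_v (D : FNet T Fa E A o inn) (m : FMid E X M v q q') {p : ℂ} (h : E X M p) :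
    p = v :=
  ((D.net X).middle_uniq m.hv m.hq m.hq' m.ne).1 p h

theorem uniq_q (D : FNet T Fa E A o inn) (m : FMid E X M v q q') {p : ℂ} (h : E Xᶜ M p) :
    p = q ∨ p = q' :=
  ((D.net X).middle_uniq m.hv m.hq m.hq' m.ne).2 p h

theorem mid_side (D : FNet T Fa E A o inn) (m : FMid E X M v q q') :
    ∃ v', FMid E Xᶜ (v + q - M) q v v' := by
  obtain ⟨-, v', n1, s1, -⟩ := (D.net X).side (M := M) m.hv m.hq m.hq' m.ne
  have w := (D.net X).rh (z := M) m.hv m.hq
  exact ⟨v', w.2, by rw [compl_compl]; exact w.1, by rw [compl_compl]; exact s1, n1.symm⟩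

theorem opp (D : FNet T Fa E A o inn) (m : FMid E X M v q q') :
    dt (v - M) (q - M) * dt (v - M) (q' - M) < 0 :=
  (D.net X).opp_sides m.hv m.hq m.hq' m.ne

/-- **FLIP** -/
theorem flip_v (D : FNet T Fa E A o inn) (m : FMid E X M v q q') :
    o X (v + q - M) v = -o X M v := by
  have w := (D.net X).rh (z := M) m.hv m.hq
  have w' := (D.net X).rh (z := M) m.hv m.hq'
  have n1 : v + q' - M ≠ M := (D.net X).ne_z (z := M) m.hv m.hq'
  have n2 : v + q' - M ≠ v + q - M := fun h => m.ne (by linear_combination -h)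
  obtain ⟨a, b, ha, hb, h⟩ := D.LP3 m.hv m.hq w'.1 w'.2 n1 n2
  obtain ⟨β, γ, hβ, hγ, hg⟩ := (D.net X).between (M := M) m.hv m.hq m.hq' m.ne
  have hqq := (D.net X).dt_qq (M := M) m.hv m.hq m.hq' m.ne
  refine (flip (g := M - v) (n := v + q - M - v) (n' := v + q' - M - v) (D.ori m.hv)
    (D.ori w.1) (D.ori w'.1) ?_ hβ hγ hg ⟨a, b, 1, ha, hb, zero_le_one, by positivity,
      ?_⟩).1
  · rw [show v + q - M - v = q - M by ring, show v + q' - M - v = q' - M by ring]
    exact hqq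
  · push_cast
    linear_combination I * h

theorem flip_q (D : FNet T Fa E A o inn) (m : FMid E X M v q q') :
    o Xᶜ (v + q - M) q = -o Xᶜ M q := by
  obtain ⟨v', m'⟩ := D.mid_side m
  have h := D.flip_v m'
  rw [show q + v - (v + q - M) = M by ring] at h
  linarith

theorem be1 (D : FNet T Fa E A o inn) (m : FMid E X M v q q') :
    inn X M v ∈ T (v + q - M) ↔ o X M v * dt (v - M) (q - M) < 0 := by
  obtain ⟨v', m'⟩ := D.mid_side m
  have hw := (D.net X).rh (z := M) m.hv m.hq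
  have h := D.LP1 hw.1 hw.2
  rw [show v + q - (v + q - M) = M by ring, D.flip_v m, show v + q - M - v = q - M by ring,
    show q - (v + q - M) = -(v - M) by ring, dt_neg_right, dt_comm (v - M) (q - M)] at h
  rw [← h]
  constructor <;> intro h' <;> nlinarith

theorem be2 (D : FNet T Fa E A o inn) (m : FMid E X M v q q') :
    inn Xᶜ M q ∈ T (v + q - M) ↔ 0 < o Xᶜ M q * dt (v - M) (q - M) := by
  obtain ⟨v', m'⟩ := D.mid_side m
  have h := D.LP1 m'.hv m'.hq
  rw [show q + v - (v + q - M) = M by ring, D.flip_q m, show v + q - M - q = v - M by ring,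
    show v - (v + q - M) = -(q - M) by ring, dt_neg_right] at h
  rw [← h]
  constructor <;> intro h' <;> nlinarith

theorem cov' (D : FNet T Fa E A o inn) (m : FMid E X M v q q') (i : Fin 6) :
    i ∈ T M ∨ i ∈ T (v + q - M) := D.cov m.hv m.hq i

/-- **(al)** the two side centres do not have all six colours -/
theorem al (D : FNet T Fa E A o inn) (m : FMid E X M v q q') :
    ∃ i, i ∉ T (v + q - M) ∧ i ∉ T (v + q' - M) := by
  by_contra hcon
  push Not at hcon
  have hall : ∀ i, i ∈ T (v + q - M) ∨ i ∈ T (v + q' - M) := fun i =>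
    or_iff_not_imp_left.2 (hcon i)
  have w1 := (D.net X).rh (z := M) m.hv m.hq
  have w2 := (D.net X).rh (z := M) m.hv m.hq'
  obtain ⟨v1, m1⟩ := D.mid_side m
  obtain ⟨v2, m2⟩ := D.mid_side m.swap
  have hqq := (D.net X).dt_qq (M := M) m.hv m.hq m.hq' m.ne
  have hneq : v + q - M ≠ v + q' - M := fun h => m.ne (by linear_combination h)
  have dq : dist q M = 1 := (D.net X).dist_c (z := M) m.hq
  have dq' : dist q' M = 1 := (D.net X).dist_c (z := M) m.hq'
  set p : ℂ := v + q + q' - 2 * M with hp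
  have d1 : dist p (v + q - M) = 1 := by
    rw [dist_eq_norm, show p - (v + q - M) = q' - M by rw [hp]; ring, ← dist_eq_norm, dq']
  have d2 : dist p (v + q' - M) = 1 := by
    rw [dist_eq_norm, show p - (v + q' - M) = q - M by rw [hp]; ring, ← dist_eq_norm, dq]
  have n2 : (v + q - M) + (v + q' - M) ≠ 2 * p := by
    intro h
    apply hqq
    have : q' - M = -(q - M) := by rw [hp] at h; linear_combination -h
    rw [this, dt_neg_right, dt_self, neg_zero]
  have npv : p ≠ v := by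
    intro h
    apply n2
    rw [h]
    rw [hp] at h
    linear_combination h
  obtain ⟨Y, h3, hY, hA, hB⟩ := D.common w1.1 w1.2 w2.1 w2.2 hneq hall
    d1 d2 n2 (inter_one (D.card_v m.hv) (D.card_i w1.1) (D.card_i w2.1) hall)
    (inter_one (D.card_v m.hv) (D.card_i w2.1) (D.card_i w1.1) fun i => (hall i).symm)
  have hcov : ∀ i, i ∈ Y ↔ i ∈ Y ∩ T (v + q - M) ∨ i ∈ Y ∩ T (v + q' - M) := by
    intro i
    constructor
    · intro hi
      rcases hall i with h | h
      · exact Or.inl ⟨hi, h⟩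
      · exact Or.inr ⟨hi, h⟩
    · rintro (h | h) <;> exact h.1
  rcases hA with hA | hA <;> rcases hB with hB | hB
  · -- the type of `v`
    have hT : Y = X := by
      ext i
      rw [hcov, hA, hB]
      constructor
      · rintro (h | h) <;> exact h.1
      · intro hi
        rcases hall i with h | h
        · exact Or.inl ⟨hi, h⟩
        · exact Or.inr ⟨hi, h⟩
    rw [hT] at hY
    have e1 : E X (v + q - M) p := D.auto w1.1 w1.2 d1 hY
    have e2 : E X (v + q' - M) p := D.auto w2.1 w2.2 d2 hY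
    have := (D.net X).sides (M := M) m.hv m.hq m.hq' m.ne e1 npv e2 npv
    nlinarith [mul_self_nonneg (dt (M - v) (p - v))]
  · exfalso
    have hdis : Disjoint (Y ∩ T (v + q - M)) (Y ∩ T (v + q' - M)) := by
      rw [hA, hB, Set.disjoint_left]
      rintro i ⟨h, -⟩ ⟨h', -⟩
      exact h' h
    have hc : Y.ncard = (Y ∩ T (v + q - M)).ncard + (Y ∩ T (v + q' - M)).ncard := by
      rw [← ncard_union_eq hdis (toFinite _) (toFinite _)]
      congr 1
      ext i
      exact hcov i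
    rw [hA, hB, D.card_i w1.1, D.card_i w2.2, h3] at hc
    omega
  · exfalso
    have hdis : Disjoint (Y ∩ T (v + q - M)) (Y ∩ T (v + q' - M)) := by
      rw [hA, hB, Set.disjoint_left]
      rintro i ⟨h, -⟩ ⟨h', -⟩
      exact h h'
    have hc : Y.ncard = (Y ∩ T (v + q - M)).ncard + (Y ∩ T (v + q' - M)).ncard := by
      rw [← ncard_union_eq hdis (toFinite _) (toFinite _)]
      congr 1
      ext i
      exact hcov i
    rw [hA, hB, D.card_i w1.2, D.card_i w2.1, h3] at hc
    omega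
  · -- the type of `q`
    have hT : Y = Xᶜ := by
      ext i
      rw [hcov, hA, hB]
      constructor
      · rintro (h | h) <;> exact h.1
      · intro hi
        rcases hall i with h | h
        · exact Or.inl ⟨hi, h⟩
        · exact Or.inr ⟨hi, h⟩
    rw [hT] at hY
    have e1 : E Xᶜ (v + q - M) p :=
      D.auto w1.2 (by rw [compl_compl]; exact w1.1) d1 hY
    have e2 : E Xᶜ (v + q' - M) p :=
      D.auto w2.2 (by rw [compl_compl]; exact w2.1) d2 hY
    have u1 := D.uniq_v m1 e1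
    have u2 := D.uniq_v m2 e2
    exact m.ne (u1.symm.trans u2)

theorem opp' (D : FNet T Fa E A o inn) (m : FMid E X M v q q') :
    (inn X M v ∈ T (v + q - M) ↔ ¬ inn X M v ∈ T (v + q' - M)) := by
  rw [D.be1 m, D.be1 m.swap]
  have h := D.opp m
  rcases D.ori m.hv with ho | ho <;> rw [ho] <;> constructor <;> intro h1
  · nlinarith
  · by_contra h2; push Not at h1 h2; nlinarith
  · nlinarith
  · by_contra h2; push Not at h1 h2; nlinarith

theorem inter_eq_diff (K : Set (Fin 6)) (X : Set (Fin 6)) : Xᶜ ∩ K = K \ X := by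
  ext i
  simp only [mem_inter_iff, mem_compl_iff, mem_sdiff]
  tauto

/-- **(be)**: the two arcs of the second kind at the middle centre have the same orientation -/
theorem ori_eq (D : FNet T Fa E A o inn) (m : FMid E X M v q q') :
    o Xᶜ M q = o Xᶜ M q' := by
  obtain ⟨i, hi, hi'⟩ := D.al m
  have w1 := (D.net X).rh (z := M) m.hv m.hq
  have w2 := (D.net X).rh (z := M) m.hv m.hq'
  have hiM : i ∈ T M := (D.cov' m i).resolve_right hi
  have hop := D.opp' m
  have hmv := D.inn_mem m.hv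
  have hiv : i ∉ X := by
    intro hiv
    by_cases hji : inn X M v = i
    · rw [hji] at hop
      exact hi (hop.2 hi')
    · exact hop.1 (mem_of_ne (D.card_v m.hv) (D.card_i w1.1) hiv hi hmv.1 hji)
        (mem_of_ne (D.card_v m.hv) (D.card_i w2.1) hiv hi' hmv.1 hji)
  have hq := D.inn_mem m.hq
  have hq' := D.inn_mem m.hq'
  have k1 : inn Xᶜ M q ∈ T (v + q - M) ↔ inn Xᶜ M q ≠ i :=
    ⟨fun h h' => hi (h' ▸ h), fun h => mem_of_ne (D.card_v m.hq) (D.card_i w1.2) hiv hi hq.1 h⟩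
  have k2 : inn Xᶜ M q' ∈ T (v + q' - M) ↔ inn Xᶜ M q' ≠ i :=
    ⟨fun h h' => hi' (h' ▸ h), fun h =>
      mem_of_ne (D.card_v m.hq') (D.card_i w2.2) hiv hi' hq'.1 h⟩
  have hop2 := D.opp m
  have hne : inn Xᶜ M q ≠ inn Xᶜ M q' := by
    intro h
    have := (D.LP2 m.fv m.fq m.fq' (inter_eq_diff _ _) (inter_eq_diff _ _)).1 h
    linarith
  -- exactly one of the two inner colours is `i`
  have k3 : inn Xᶜ M q ≠ i ↔ ¬ inn Xᶜ M q' ≠ i := by
    constructor
    · intro h h'
      obtain ⟨x, y, hxy, hS⟩ := ncard_eq_two.1 (D.card_i m.hq)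
      have a1 : i ∈ Xᶜ ∩ T M := ⟨hiv, hiM⟩
      have a3 : inn Xᶜ M q' ∈ Xᶜ ∩ T M := hq'
      rw [hS] at a1 a3 hq
      simp only [mem_insert_iff, mem_singleton_iff] at a1 a3 hq
      rcases a1 with a1 | a1 <;> rcases hq with hq | hq <;> rcases a3 with a3 | a3 <;>
        first
          | exact h (hq.trans a1.symm)
          | exact h' (a3.trans a1.symm)
          | exact hne (hq.trans a3.symm)
    · intro h h'
      push Not at h
      exact hne (h'.trans h.symm)
  refine DNet.sign_iff (D.ori m.hq) (D.ori m.hq') hop2 ?_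
  rw [← D.be2 m, ← D.be2 m.swap, k1, k2]
  exact k3

/-- **both networks**: the other ends of the arcs at a middle centre -/
theorem both (D : FNet T Fa E A o inn) (m : FMid E X M v q q') {X' Y Y' : Set (Fin 6)}
    {v' r r' : ℂ} (hv' : A M X v X' v')
    (hr : A M Xᶜ q Y r) (hr' : A M Xᶜ q' Y' r') :
    Y = X'ᶜ ∧ Y' = X'ᶜ ∧ FMid E X' M v' r r' ∧ X' ≠ X := by
  have ev' := D.arc_end m.fv hv'
  have er := D.arc_end m.fq hr
  have er' := D.arc_end m.fq' hr'
  have h1 : X' ≠ X := by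
    intro h
    subst h
    have := D.uniq_v m ev'
    rw [this] at hv'
    have h2 := D.arc_ori m.fv m.fv hv'
    rcases D.ori m.hv with h3 | h3 <;> rw [h3] at h2 <;> norm_num at h2
  have key : ∀ {q Y r}, E Xᶜ M q → A M Xᶜ q Y r →
      (∀ p, E Xᶜ M p → o Xᶜ M p = o Xᶜ M q) → Y ≠ Xᶜ := by
    intro q Y r hq hr hall h
    subst h
    have fq : FFull E Xᶜ M q := ⟨hq, v, by rw [compl_compl]; exact m.hv⟩
    have hre := D.arc_end fq hr
    have h2 := D.arc_ori fq ⟨hre, v, by rw [compl_compl]; exact m.hv⟩ hr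
    rw [hall r hre] at h2
    rcases D.ori hq with h3 | h3 <;> rw [h3] at h2 <;> norm_num at h2
  have hoo := D.ori_eq m
  have h2 : Y ≠ Xᶜ := key m.hq hr (fun p hp => by
    rcases D.uniq_q m hp with h' | h' <;> rw [h']
    exact hoo.symm)
  have h3 : Y' ≠ Xᶜ := key m.hq' hr' (fun p hp => by
    rcases D.uniq_q m hp with h' | h' <;> rw [h']
    exact hoo)
  have e1 : Y = X'ᶜ := type_swap_compl (D.card_v m.hv) (D.card_v ev') rfl
      (D.card_v er) (D.card_i m.hv) (D.card_i m.hq) (D.arc_pair m.fv hv') h1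
      (D.arc_pair m.fq hr) h2
  have e2 : Y' = X'ᶜ := type_swap_compl (D.card_v m.hv) (D.card_v ev') rfl
      (D.card_v er') (D.card_i m.hv) (D.card_i m.hq') (D.arc_pair m.fv hv') h1
      (D.arc_pair m.fq' hr') h3
  subst e1
  subst e2
  refine ⟨rfl, rfl, ⟨ev', er, er', ?_⟩, h1⟩
  intro h
  subst h
  have fr : FFull E X'ᶜ M r := ⟨er, v', by rw [compl_compl]; exact ev'⟩
  exact m.ne (D.arc_uniq fr (D.arc_symm m.fq fr hr) (D.arc_symm m.fq' fr hr')).2

/-- an end of the type of the far end of the arc at `v` is this far end -/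
theorem uniq_far (D : FNet T Fa E A o inn) (m : FMid E X M v q q') {X' : Set (Fin 6)}
    {v' p : ℂ} (hv' : A M X v X' v') (hd : dist p M = 1) (h : Fa X' p) : p = v' := by
  obtain ⟨Y, r, hr⟩ := D.arc_ex m.fq
  obtain ⟨Y', r', hr'⟩ := D.arc_ex m.fq'
  obtain ⟨-, -, b, -⟩ := D.both m hv' hr hr'
  exact D.uniq_v b (D.auto b.hv b.hq hd h)

/-- the colours of `w = v + q - M` and `w* = v' + r - M` -/
theorem far_cov (D : FNet T Fa E A o inn) (m : FMid E X M v q q') {X' : Set (Fin 6)}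
    {v' r r' : ℂ} (hv' : A M X v X' v')
    (hr : A M Xᶜ q X'ᶜ r) (hr' : A M Xᶜ q' X'ᶜ r') (i : Fin 6) :
    i ∈ T (v + q - M) ∨ i ∈ T (v' + r - M) := by
  obtain ⟨-, -, b, n1⟩ := D.both m hv' hr hr'
  have fv' : FFull E X' M v' := b.fv
  have fr : FFull E X'ᶜ M r := b.fq
  have w1 := (D.net X).rh (z := M) m.hv m.hq
  have w2 := (D.net X').rh (z := M) b.hv b.hq
  have pv := D.arc_pair m.fv hv'
  have pr := D.arc_pair m.fq hr
  have iv := D.arc_inn m.fv fv' hv'
  have ir := D.arc_inn m.fq fr hr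
  have ov := D.arc_ori m.fv fv' hv'
  have or' := D.arc_ori m.fq fr hr
  have hqv : X ∩ T M = T M \ Xᶜ := by
    ext i; simp only [mem_inter_iff, mem_compl_iff, mem_sdiff]; tauto
  have hv'q : Xᶜ ∩ T M = T M \ X' := by
    rw [← pr]; ext i; simp only [mem_inter_iff, mem_compl_iff, mem_sdiff]; tauto
  have s1 : 0 < dt (q - M) (v - M) * dt (q - M) (v' - M) :=
    (D.LP2 m.fq m.fv fv' hqv (pv.trans hqv)).1 iv.symm
  have s2 : 0 < dt (v' - M) (q - M) * dt (v' - M) (r - M) :=
    (D.LP2 fv' m.fq fr hv'q (pr.trans hv'q)).1 ir.symm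
  have s3 : 0 < dt (v - M) (q - M) * dt (v' - M) (r - M) := by
    rw [dt_comm (v - M) (q - M), dt_comm (v' - M) (q - M)] at s1
    set x := dt (v - M) (q - M)
    set y := dt (v' - M) (q - M)
    set z := dt (v' - M) (r - M)
    have h1 : 0 < x * y := by linarith
    by_contra hcon
    push Not at hcon
    have h2 : 0 < (x * y) * (y * z) := mul_pos h1 s2
    have h3 : (x * y) * (y * z) = (x * z) * y ^ 2 := by ring
    rw [h3] at h2
    nlinarith [sq_nonneg y]
  -- the inner colours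
  have c1 : inn X M v ∈ T (v' + r - M) ↔ ¬ inn X M v ∈ T (v + q - M) := by
    have h1 := D.be1 b
    rw [iv, ov] at h1
    rw [h1, D.be1 m]
    rcases D.ori m.hv with ho | ho <;> rw [ho] <;> constructor <;> intro h
    · push Not; nlinarith
    · push Not at h; nlinarith
    · push Not; nlinarith
    · push Not at h; nlinarith
  have c2 : inn Xᶜ M q ∈ T (v' + r - M) ↔ ¬ inn Xᶜ M q ∈ T (v + q - M) := by
    have h1 := D.be2 b
    rw [ir, or'] at h1
    rw [h1, D.be2 m]
    rcases D.ori m.hq with ho | ho <;> rw [ho] <;> constructor <;> intro h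
    · push Not; nlinarith
    · push Not at h; nlinarith
    · push Not; nlinarith
    · push Not at h; nlinarith
  by_contra hcon
  push Not at hcon
  obtain ⟨hi, hi'⟩ := hcon
  have hiM : i ∈ T M := (D.cov' m i).resolve_right hi
  have hmv := D.inn_mem m.hv
  have hmq := D.inn_mem m.hq
  have hmv' := D.inn_mem b.hv
  have hmr := D.inn_mem b.hq
  rw [iv] at hmv'
  rw [ir] at hmr
  by_cases hiv : i ∈ X
  · have hiv' : i ∈ X' := (pv.superset ⟨hiv, hiM⟩).1
    by_cases hji : inn X M v = i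
    · rw [hji] at c1
      exact hi' (c1.2 hi)
    · exact c1.1 (mem_of_ne (D.card_v b.hv) (D.card_i w2.1) hiv' hi' hmv'.1 hji)
        (mem_of_ne (D.card_v m.hv) (D.card_i w1.1) hiv hi hmv.1 hji)
  · have hiq : i ∈ Xᶜ := hiv
    have hir : i ∈ X'ᶜ := (pr.superset ⟨hiq, hiM⟩).1
    by_cases hji : inn Xᶜ M q = i
    · rw [hji] at c2
      exact hi' (c2.2 hi)
    · exact c2.1 (mem_of_ne (D.card_v b.hq) (D.card_i w2.2) hir hi' hmr.1 hji)
        (mem_of_ne (D.card_v m.hq) (D.card_i w1.2) hiq hi hmq.1 hji)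

/-- a common point of the circles about `w = v + q - M` and `w* = v' + r - M` is the far end of
the arc at `q` on the first one or the far end of the arc at `r` on the second one -/
theorem common_far (D : FNet T Fa E A o inn) (m : FMid E X M v q q') {X' Yx Yy : Set (Fin 6)}
    {v' r r' : ℂ}
    (hv' : A M X v X' v') (hr : A M Xᶜ q X'ᶜ r) (hr' : A M Xᶜ q' X'ᶜ r') {x y p : ℂ}
    (hx : A (v + q - M) Xᶜ q Yx x) (hy : A (v' + r - M) X'ᶜ r Yy y)
    (d1 : dist p (v + q - M) = 1) (d2 : dist p (v' + r - M) = 1)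
    (n : (v + q - M) + (v' + r - M) ≠ 2 * p) : p = x ∨ p = y := by
  obtain ⟨-, -, b, n1⟩ := D.both m hv' hr hr'
  have w1 := (D.net X).rh (z := M) m.hv m.hq
  have w2 := (D.net X').rh (z := M) b.hv b.hq
  obtain ⟨a1, m1⟩ := D.mid_side m
  obtain ⟨a2, m2⟩ := D.mid_side b
  have hall := D.far_cov m hv' hr hr'
  have pv := D.arc_pair m.fv hv'
  have pr := D.arc_pair m.fq hr
  have hne : v + q - M ≠ v' + r - M := by
    intro h
    have h4 := D.card_z w1.1
    have : T (v + q - M) = univ := by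
      ext i
      simp only [mem_univ, iff_true]
      rcases hall i with h' | h'
      · exact h'
      · rw [h]; exact h'
    rw [this, ncard_univ, Nat.card_eq_fintype_card, Fintype.card_fin] at h4
    omega
  -- outer colours of `M`
  obtain ⟨e, hev, heM⟩ := exists_out (D.card_v m.hv) (D.card_i m.hv)
  obtain ⟨f, hfv', hfM⟩ := exists_out (D.card_v b.hv) (D.card_i b.hv)
  have hew : e ∈ T (v + q - M) := (D.cov' m e).resolve_left heM
  have hew' : e ∈ T (v' + r - M) := (D.cov' b e).resolve_left heM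
  have hfw : f ∈ T (v + q - M) := (D.cov' m f).resolve_left hfM
  have hfw' : f ∈ T (v' + r - M) := (D.cov' b f).resolve_left hfM
  have hTv' : X' = (X ∩ T M) ∪ (Xᶜ \ T M) :=
    type_swap (D.card_v m.hv) (D.card_v b.hv) (D.card_i m.hv) (D.card_i m.hq) pv n1
  have hfv : f ∉ X := by
    rw [hTv'] at hfv'
    rcases hfv' with h | h
    · exact absurd h.2 hfM
    · exact h.1
  have hev' : e ∉ X' := by
    rw [hTv']
    rintro (h | h)
    · exact heM h.2
    · exact h.1 hev
  have hef : e ≠ f := by rintro rfl; exact hfv hev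
  have hpair : ∀ {i : Fin 6}, i ∈ T (v + q - M) → i ∈ T (v' + r - M) → i = e ∨ i = f :=
    inter_pair (D.card_z w1.1) (D.card_z w2.1) hall hew hew' hfw hfw' hef
  have hc1 : (X ∩ T (v + q - M) ∩ T (v' + r - M)).ncard = 1 := by
    rw [ncard_eq_one]
    refine ⟨e, ?_⟩
    ext i
    constructor
    · rintro ⟨⟨h1, h2⟩, h3⟩
      rcases hpair h2 h3 with h | h
      · exact h
      · exact absurd (h ▸ h1) hfv
    · rintro rfl
      exact ⟨⟨hev, hew⟩, hew'⟩
  have hc2 : (X' ∩ T (v' + r - M) ∩ T (v + q - M)).ncard = 1 := by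
    rw [ncard_eq_one]
    refine ⟨f, ?_⟩
    ext i
    constructor
    · rintro ⟨⟨h1, h2⟩, h3⟩
      rcases hpair h3 h2 with h | h
      · exact absurd (h ▸ h1) hev'
      · exact h
    · rintro rfl
      exact ⟨⟨hfv', hfw'⟩, hfw⟩
  obtain ⟨P, h3, hP, hA, hB⟩ := D.common w1.1 w1.2 w2.1 w2.2 hne hall d1 d2 n hc1 hc2
  rcases hA with hA | hA <;> rcases hB with hB | hB
  · -- `f` would be in `X`
    exfalso
    have h1 : f ∈ P ∩ T (v' + r - M) := by rw [hB]; exact ⟨hfv', hfw'⟩
    have h2 : f ∈ P ∩ T (v + q - M) := ⟨h1.1, hfw⟩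
    rw [hA] at h2
    exact hfv h2.1
  · -- type of `y`
    right
    have hn : P ≠ X'ᶜ := by
      -- an element of `X ∩ T w` in `T M`
      obtain ⟨g, hg, hgM⟩ : ∃ g, g ∈ X ∩ T (v + q - M) ∧ g ≠ e := by
        by_contra hcon
        push Not at hcon
        have : (X ∩ T (v + q - M)).ncard ≤ ({e} : Set (Fin 6)).ncard :=
          ncard_le_ncard (fun g hg => hcon g hg) (toFinite _)
        rw [ncard_singleton, D.card_i w1.1] at this
        omega
      intro h
      have hgp : g ∈ P ∩ T (v + q - M) := by rw [hA]; exact hg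
      have hgr : g ∈ X'ᶜ := h ▸ hgp.1
      have hgMM : g ∈ T M := mem_of_ne (D.card_v m.hv) (D.card_i m.hv) hev heM hg.1 hgM
      exact hgr (pv.superset ⟨hg.1, hgMM⟩).1
    have hyn : Yy ≠ X'ᶜ := by
      obtain ⟨S, s, hs⟩ := D.arc_ex m2.fq
      obtain ⟨S', s', hs'⟩ := D.arc_ex m2.fq'
      exact (D.both m2 hy hs hs').2.2.2
    have hyE := D.arc_end m2.fv hy
    have hyp := D.arc_pair m2.fv hy
    have hcc : (X'ᶜᶜ ∩ T (v' + r - M)).ncard = 2 := by
      rw [compl_compl]; exact D.card_i w2.1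
    have hT : P = Yy := by
      rw [type_swap (D.card_v b.hq) h3 (D.card_i w2.2) hcc hB hn,
        type_swap (D.card_v b.hq) (D.card_v hyE) (D.card_i w2.2) hcc hyp hyn]
    subst hT
    exact D.uniq_far m2 hy d2 hP
  · -- type of `x`
    left
    have hn : P ≠ Xᶜ := by
      obtain ⟨g, hg, hgM⟩ : ∃ g, g ∈ X' ∩ T (v' + r - M) ∧ g ≠ f := by
        by_contra hcon
        push Not at hcon
        have : (X' ∩ T (v' + r - M)).ncard ≤ ({f} : Set (Fin 6)).ncard :=
          ncard_le_ncard (fun g hg => hcon g hg) (toFinite _)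
        rw [ncard_singleton, D.card_i w2.1] at this
        omega
      intro h
      have hgp : g ∈ P ∩ T (v' + r - M) := by rw [hB]; exact hg
      have hgq : g ∈ Xᶜ := h ▸ hgp.1
      have hgMM : g ∈ T M := mem_of_ne (D.card_v b.hv) (D.card_i b.hv) hfv' hfM hg.1 hgM
      exact hgq (pv.subset ⟨hg.1, hgMM⟩).1
    have hxn : Yx ≠ Xᶜ := by
      obtain ⟨S, s, hs⟩ := D.arc_ex m1.fq
      obtain ⟨S', s', hs'⟩ := D.arc_ex m1.fq'
      exact (D.both m1 hx hs hs').2.2.2
    have hxE := D.arc_end m1.fv hx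
    have hxp := D.arc_pair m1.fv hx
    have hcc : (Xᶜᶜ ∩ T (v + q - M)).ncard = 2 := by
      rw [compl_compl]; exact D.card_i w1.1
    have hT : P = Yx := by
      rw [type_swap (D.card_v m.hq) h3 (D.card_i w1.2) hcc hA hn,
        type_swap (D.card_v m.hq) (D.card_v hxE) (D.card_i w1.2) hcc hxp hxn]
    subst hT
    exact D.uniq_far m1 hx d1 hP
  · -- `e` would be in `Xᶜ`
    exfalso
    have h1 : e ∈ P ∩ T (v' + r - M) := by rw [hB]; exact ⟨hev', hew'⟩
    have h2 : e ∈ P ∩ T (v + q - M) := ⟨h1.1, hew⟩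
    rw [hA] at h2
    exact h2.1 hev

/-- the chord of an arc of length at most `π / 3` -/
theorem chord0 {V V' : ℂ} {o l : ℝ} (hV : ‖V‖ = 1) (ho : o = 1 ∨ o = -1) (h0 : 0 ≤ l)
    (h1 : l ≤ Real.pi / 3) (h : V' = V * Complex.exp (-((o * l : ℝ) : ℂ) * I)) :
    ‖V'‖ = 1 ∧ ‖V - V'‖ ≤ 1 := by
  rcases h0.lt_or_eq with h0 | h0
  · exact chord hV ho h0 h1 h
  · subst h0
    have : V' = V := by rw [h]; simp
    rw [this]
    exact ⟨hV, by simp⟩

/-- the three arcs cannot close up unless all are of length `π / 3` -/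
theorem closing0 {o s l l₁ l₂ : ℝ} (ho : o = 1 ∨ o = -1) (hs : s = 1 ∨ s = -1)
    (h0 : 0 ≤ l) (h1 : 0 ≤ l₁) (h2 : 0 ≤ l₂) (k0 : l ≤ Real.pi / 3) (k1 : l₁ ≤ Real.pi / 3)
    (k2 : l₂ ≤ Real.pi / 3) (h : Real.cos (o * l + s * l₁ + s * l₂) = -1) :
    l = Real.pi / 3 := by
  have hpi := Real.pi_pos
  have key : ∀ t : ℝ, |t| < Real.pi → Real.cos t ≠ -1 := by
    intro t ht hc
    have := Real.cos_lt_cos_of_nonneg_of_le_pi (abs_nonneg t) le_rfl ht
    rw [Real.cos_pi, Real.cos_abs] at this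
    linarith
  have h3 : Real.pi ≤ |o * l + s * l₁ + s * l₂| := by
    by_contra hcon
    push Not at hcon
    exact key _ hcon h
  rcases ho with rfl | rfl <;> rcases hs with rfl | rfl
  · rw [abs_of_nonneg (by linarith)] at h3
    linarith
  · exfalso
    rcases le_abs'.1 h3 with h4 | h4 <;> linarith
  · exfalso
    rcases le_abs'.1 h3 with h4 | h4 <;> linarith
  · rw [abs_of_nonpos (by linarith)] at h3
    linarith

theorem dist_e (D : FNet T Fa E A o inn) {z v : ℂ} (h : E X z v) : ‖v - z‖ = 1 := by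
  have := (D.net X).dist_t (z := z) (v := v) h
  rwa [dist_eq_norm] at this

theorem chord60 {V V' : ℂ} {o : ℝ} (hV : ‖V‖ = 1) (ho : o = 1 ∨ o = -1)
    (h : V' = V * Complex.exp (-((o * (Real.pi / 3) : ℝ) : ℂ) * I)) : ‖V - V'‖ = 1 := by
  have e1 : -((o * (Real.pi / 3) : ℝ) : ℂ) * I = ((-(o * (Real.pi / 3)) : ℝ) : ℂ) * I := by
    push_cast; ring
  rw [e1] at h
  have e2 : V - V' = V * (1 - Complex.exp (((-(o * (Real.pi / 3)) : ℝ) : ℂ) * I)) := by
    rw [h]; ring
  rw [e2, norm_mul, hV, one_mul]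
  have hcc : Real.cos (-(o * (Real.pi / 3))) = 1 / 2 := by
    rw [Real.cos_neg]
    rcases ho with rfl | rfl
    · rw [one_mul, Real.cos_pi_div_three]
    · rw [neg_one_mul, Real.cos_neg, Real.cos_pi_div_three]
  have e3 : ‖1 - Complex.exp (((-(o * (Real.pi / 3)) : ℝ) : ℂ) * I)‖ ^ 2 = 1 := by
    rw [norm_sq_dot]
    unfold dot
    simp only [sub_re, sub_im, one_re, one_im, Complex.exp_ofReal_mul_I_re,
      Complex.exp_ofReal_mul_I_im]
    have := Real.sin_sq_add_cos_sq (-(o * (Real.pi / 3)))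
    rw [hcc] at this ⊢
    nlinarith
  nlinarith [norm_nonneg (1 - Complex.exp (((-(o * (Real.pi / 3)) : ℝ) : ℂ) * I))]

/-- **there is no centre with ends of complementary types** -/
theorem false (D : FNet T Fa E A o inn) {z v q : ℂ} (hv : E X z v) (hq : E Xᶜ z q) : False := by
  obtain ⟨M, q', m⟩ := D.exists_mid hv hq
  obtain ⟨X', v', hv'⟩ := D.arc_ex m.fv
  obtain ⟨Y, r, hr⟩ := D.arc_ex m.fq
  obtain ⟨Y', r', hr'⟩ := D.arc_ex m.fq'
  obtain ⟨rfl, rfl, b, n1⟩ := D.both m hv' hr hr'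
  have w1 := (D.net X).rh (z := M) m.hv m.hq
  have w2 := (D.net X').rh (z := M) b.hv b.hq
  obtain ⟨a1, m1⟩ := D.mid_side m
  obtain ⟨a2, m2⟩ := D.mid_side b
  obtain ⟨Yx, x, hx⟩ := D.arc_ex m1.fv
  obtain ⟨Yy, y, hy⟩ := D.arc_ex m2.fv
  have hall := D.far_cov m hv' hr hr'
  have pv := D.arc_pair m.fv hv'
  have pr := D.arc_pair m.fq hr
  have hne : v + q - M ≠ v' + r - M := by
    intro h
    have h4 := D.card_z w1.1
    have : T (v + q - M) = univ := by
      ext i
      simp only [mem_univ, iff_true]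
      rcases hall i with h' | h'
      · exact h'
      · rw [h]; exact h'
    rw [this, ncard_univ, Nat.card_eq_fintype_card, Fintype.card_fin] at h4
    omega
  -- orientations
  have os : o Xᶜ (v + q - M) q = -o Xᶜ M q := D.flip_q m
  have or1 : o X'ᶜ M r = -o Xᶜ M q := D.arc_ori m.fq b.fq hr
  have or2 : o X'ᶜ (v' + r - M) r = o Xᶜ M q := by rw [D.flip_q b, or1, neg_neg]
  -- arcs
  obtain ⟨l, l0, l1, hl⟩ := D.arc_len m.fv hv'
  obtain ⟨l', l0', l1', hl'⟩ := D.arc_len m.fq hr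
  obtain ⟨k, k0, k1, hk⟩ := D.arc_len m1.fv hx
  obtain ⟨j, j0, j1, hj⟩ := D.arc_len m2.fv hy
  obtain ⟨c1, c2⟩ := chord0 (D.dist_e m.hv) (D.ori m.hv) l0 l1 hl
  obtain ⟨c3, c4⟩ := chord0 (D.dist_e m.hq) (D.ori m.hq) l0' l1' hl'
  have d1 : dt (v - M) (q - M) ≠ 0 := (D.net X).dt_ne m.hv m.hq
  have hvr : X ∩ T M = T M \ X'ᶜ := by
    rw [← pv]; ext i; simp only [mem_inter_iff, mem_compl_iff, mem_sdiff]; tauto
  have d2 : dt (v - M) (r - M) ≠ 0 := by
    intro h
    have := (D.LP2 b.fq m.fv m.fv hvr hvr).1 rfl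
    rw [dt_comm (v - M) (r - M), h] at this
    simp at this
  have hd : dist (v + q - M) (v' + r - M) < 2 := by
    have := norm_lt_two (D.dist_e m.hv) c1 (D.dist_e m.hq) c3 c2 c4 d1 d2
    have e : v + q - M - (v' + r - M) = (v - M - (v' - M)) + (q - M - (r - M)) := by ring
    rw [dist_eq_norm, e]
    exact this
  obtain ⟨p, p', hpp, hsum, e1, e2, e3, e4⟩ := two_points hne hd
  have q1 : (v + q - M) + (v' + r - M) ≠ 2 * p := by
    intro h
    apply hpp
    rw [← hsum] at h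
    linear_combination -h
  have q2 : (v + q - M) + (v' + r - M) ≠ 2 * p' := by
    intro h
    apply hpp
    rw [← hsum] at h
    linear_combination h
  have hxy : x + y = (v + q - M) + (v' + r - M) := by
    rcases D.common_far m hv' hr hr' hx hy e1 e2 q1 with h | h <;>
      rcases D.common_far m hv' hr hr' hx hy e3 e4 q2 with h' | h'
    · exact absurd (h.trans h'.symm) hpp
    · rw [← h, ← h']; exact hsum
    · rw [← h, ← h', add_comm]; exact hsum
    · exact absurd (h.trans h'.symm) hpp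
  -- the closing equation
  have hV0 : v - M ≠ 0 := by
    intro h
    have := D.dist_e m.hv
    rw [h, norm_zero] at this
    norm_num at this
  rw [os] at hk
  rw [or2] at hj
  have hclose : Real.cos (o X M v * l + o Xᶜ M q * j + o Xᶜ M q * k) = -1 := by
    have h1 : (v - M) * Complex.exp (((o Xᶜ M q * k : ℝ) : ℂ) * I) =
        -((v - M) * (Complex.exp (-((o X M v * l : ℝ) : ℂ) * I) *
          Complex.exp (-((o Xᶜ M q * j : ℝ) : ℂ) * I))) := by
      have h2 : x - (v + q - M) = -(y - (v' + r - M)) := by linear_combination hxy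
      rw [hk, hj, show q - (v + q - M) = -(v - M) by ring,
        show r - (v' + r - M) = -(v' - M) by ring, hl] at h2
      have h3 : -((-(o Xᶜ M q) * k : ℝ) : ℂ) * I = ((o Xᶜ M q * k : ℝ) : ℂ) * I := by
        push_cast; ring
      rw [h3] at h2
      linear_combination -h2
    have h4 : Complex.exp (((o Xᶜ M q * k : ℝ) : ℂ) * I) =
        -(Complex.exp (-((o X M v * l : ℝ) : ℂ) * I) *
          Complex.exp (-((o Xᶜ M q * j : ℝ) : ℂ) * I)) := by
      apply mul_left_cancel₀ hV0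
      rw [h1]; ring
    have h5 : Complex.exp (((o X M v * l + o Xᶜ M q * j + o Xᶜ M q * k : ℝ) : ℂ) * I) = -1 := by
      have h6 : ((o X M v * l + o Xᶜ M q * j + o Xᶜ M q * k : ℝ) : ℂ) * I =
          ((o X M v * l : ℝ) : ℂ) * I + (((o Xᶜ M q * j : ℝ) : ℂ) * I +
            ((o Xᶜ M q * k : ℝ) : ℂ) * I) := by push_cast; ring
      rw [h6, Complex.exp_add, Complex.exp_add, h4]
      have h7 : Complex.exp (((o X M v * l : ℝ) : ℂ) * I) *
          Complex.exp (-((o X M v * l : ℝ) : ℂ) * I) = 1 := by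
        rw [← Complex.exp_add, neg_mul, add_neg_cancel, Complex.exp_zero]
      have h8 : Complex.exp (((o Xᶜ M q * j : ℝ) : ℂ) * I) *
          Complex.exp (-((o Xᶜ M q * j : ℝ) : ℂ) * I) = 1 := by
        rw [← Complex.exp_add, neg_mul, add_neg_cancel, Complex.exp_zero]
      linear_combination (-(Complex.exp (((o Xᶜ M q * j : ℝ) : ℂ) * I) *
          Complex.exp (-((o Xᶜ M q * j : ℝ) : ℂ) * I))) * h7 - h8
    have := congrArg Complex.re h5
    rw [Complex.exp_ofReal_mul_I_re] at this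
    simpa using this
  have t2 := closing0 (D.ori m.hv) (D.ori m.hq) l0 j0 k0 l1 j1 k1 hclose
  -- the tie
  subst t2
  have := chord60 (D.dist_e m.hv) (D.ori m.hv) hl
  rw [show v - M - (v' - M) = v - v' by ring, ← dist_eq_norm] at this
  exact D.no60 m.hv m.hq m.hq' m.ne hv' this

end FNet

end Vale.Agent.P032.H949
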